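import Mathlib
import Vale.Agent.Lib.P312.Defs
import Vale.Agent.Lib.P312.Sweep

namespace Vale.Agent.Results.P312.SweepTradeoff

open Vale.Agent.Lib.P312

/-- For every finite-state transducer `δ` (state set `Q`, cell alphabet `Γ`, start state `q0`)
and all `n, b ≥ 1`: the state in which the last of `n * b` left-to-right rewriting passes over
`n * b` cells ends is computed, as a function of the initial cell contents, by an oblivious
branching program of width at most `(8b+2)^(6b|Q||Γ|)` and length at most `2b(56b+14)^(2n)`. -/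
theorem result (Q Γ : Type) [Fintype Q] [Fintype Γ] (δ : Q → Γ → Q × Γ) (q0 : Q)
    (n b : ℕ) (hn : 0 < n) (hb : 0 < b) :
    ∃ (S : Type) (_ : Fintype S) (init : S) (prog : List (Fin (n * b) × (Γ → S → S)))
      (out : S → Q),
      Fintype.card S ≤ (8 * b + 2) ^ (6 * b * (Fintype.card Q * Fintype.card Γ)) ∧
      prog.length ≤ 2 * b * (56 * b + 14) ^ (2 * n) ∧
      ∀ x : Fin (n * b) → Γ,
        out (runBP prog x init) = (pass δ q0 (passes δ q0 (n * b - 1) (List.ofFn x))).1 :=
  sweep_bp Q Γ δ q0 n b hn hb

end Vale.Agent.Results.P312.SweepTradeoff
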