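import Mathlib
import Vale.Agent.Lib.P312.Defs
import Vale.Agent.Lib.P312.TMDefs
import Vale.Agent.Lib.P312.SweeperBP

namespace Vale.Agent.Results.P312.SweeperSquare

open Vale.Agent.Lib.P312

/-- For every finite-state transducer `δ` and every `b ≥ 1`: the state of the one-tape
Turing machine `sweeper δ q0` after `2 b^4 + b^2 - 2` steps on an input of length `b^2`
(the end of its `b^2`-th sweep) is computed by an oblivious branching program whose width
times length is at most `(56 b + 14)^(b (6 |Q| |Γ| + 2) + 1)`. -/
theorem result (Q Γ : Type) [Fintype Q] [Fintype Γ] (δ : Q → Γ → Q × Γ) (q0 : Q)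
    (b : ℕ) (hb : 0 < b) :
    ∃ (S : Type) (_ : Fintype S) (init : S) (prog : List (Fin (b * b) × (Γ → S → S)))
      (out : S → Option Q),
      Fintype.card S * prog.length
        ≤ (56 * b + 14) ^ (b * (6 * (Fintype.card Q * Fintype.card Γ) + 2) + 1) ∧
      ∀ x : Fin (b * b) → Γ,
        out (runBP prog x init)
          = (((sweeper δ q0).next)^[2 * b ^ 4 + b ^ 2 - 2]
              (initCfg (some q0) (List.ofFn x))).state :=
  sweeper_bp_square Q Γ δ q0 b hb

end Vale.Agent.Results.P312.SweeperSquare
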