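import Mathlib
import Vale.Agent.Lib.P312.Defs
import Vale.Agent.Lib.P312.TMDefs
import Vale.Agent.Lib.P312.SweeperBP

namespace Vale.Agent.Results.P312.SweeperTM

open Vale.Agent.Lib.P312

/-- For every finite-state transducer `δ` and all `n1, n2, b ≥ 1`, with `s = n1 * b` cells and
`r = n2 * b` sweeps: the state of the one-tape Turing machine `sweeper δ q0` after
`(r - 1) (2 s + 2) + s` steps on an input of length `s` (the end of its `r`-th sweep) is
computed by an oblivious branching program of width at most `(8b+2)^(6b|Q||Γ|)` and length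
at most `2b(56b+14)^(n1+n2)`. -/
theorem result (Q Γ : Type) [Fintype Q] [Fintype Γ] (δ : Q → Γ → Q × Γ) (q0 : Q)
    (n1 n2 b : ℕ) (hn1 : 0 < n1) (hn2 : 0 < n2) (hb : 0 < b) :
    ∃ (S : Type) (_ : Fintype S) (init : S) (prog : List (Fin (n1 * b) × (Γ → S → S)))
      (out : S → Option Q),
      Fintype.card S ≤ (8 * b + 2) ^ (6 * b * (Fintype.card Q * Fintype.card Γ)) ∧
      prog.length ≤ 2 * b * (56 * b + 14) ^ (n1 + n2) ∧
      ∀ x : Fin (n1 * b) → Γ,
        out (runBP prog x init)
          = (((sweeper δ q0).next)^[(n2 * b - 1) * (2 * (n1 * b) + 2) + n1 * b]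
              (initCfg (some q0) (List.ofFn x))).state :=
  sweeper_bp2 Q Γ δ q0 n1 n2 b hn1 hn2 hb

end Vale.Agent.Results.P312.SweeperTM
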